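import Crest.Agent.X212.Chg68.Job
import Crest.Agent.X212.Kit16.Plug

/-!
# Row 212, GL-CHG (helper68): the field `mdl` of the kit leaves
-/

set_option autoImplicit false
noncomputable section

namespace Crest.Agent.X212.Chg68
open An An.Job M G75 Ins26 Kof81

theorem chgL {Wi : Type} {X : Mf 4} {A κ lam : Type} [Fintype A] [Fintype κ] [Fintype lam]
    [DecidableEq lam] {M : Mark X A κ} {W : World M} {L : ML M lam} {Λ : Lns W L}
    {A' h : Type} [Fintype A'] [DecidableEq A'] [Fintype h] {r n : ℕ} (J : Job Wi Λ A' h r n) :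
    Kit16.ChgL J := chg

/-- **LEAF MDL + CHG** -/
theorem mdlF {κ lam : Type} [Fintype κ] [Fintype lam] [DecidableEq lam] (Lm : LM κ lam) :
    AllF Lm fun J n₀ => MdlL J n₀ :=
  Kit16.mdlF fun _ _ _ _ _ _ J _ _ => chgL J

end Crest.Agent.X212.Chg68
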