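import Crest.Agent.X212.Chg68.Gen
import Crest.Agent.X212.An.CutI

/-!
# Row 212, GL-CHG (helper68): the chart with the cuts
-/

set_option autoImplicit false
set_option linter.unusedSectionVars false
noncomputable section
open scoped Manifold ContDiff Topology InnerProductSpace
open MeasureTheory Set Function Filter

namespace Crest.Agent.X212.Chg68
open An Prm93 Sob92 Mod61 Gl67 Kit16
open Map77 (Cf fa fp maps_f2 maps_s2)
open Wz78 (idx_apply)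

variable {E : Type} [NormedAddCommGroup E] [NormedSpace ℝ E] [FiniteDimensional ℝ E]
  [MeasurableSpace E] [BorelSpace E]
  {HM : Type} [TopologicalSpace HM] {I : ModelWithCorners ℝ E HM} [I.Boundaryless]
  {M : Type} [TopologicalSpace M] [ChartedSpace HM M] [IsManifold I ∞ M]
  [MeasurableSpace M] [T2Space M] [BorelSpace M] [SecondCountableTopology M] [CompactSpace M]
  {ι lam h : Type} [Fintype ι] [Fintype lam] [Fintype h]
  {T T' U Up R : Type} [NormedAddCommGroup T] [NormedSpace ℝ T] [NormedAddCommGroup T']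
  [NormedSpace ℝ T'] [NormedAddCommGroup U]
  [NormedSpace ℝ U] [NormedAddCommGroup Up] [NormedSpace ℝ Up] [NormedAddCommGroup R]
  [NormedSpace ℝ R] {N r n m k : ℕ} {Jc : En (Fin N)} {𝔉 : Fam I M ι lam T}
  {𝔉' : Fam I M ι lam T'}

/-! ### the cuts -/

/-- the Hardy projection -/
abbrev pj (J p : En (Fin N)) : CL (L2c (Fin N)) (Hd J p) := (Hd J p).orthogonalProjectionOnto

theorem pj_coe {J p : En (Fin N)} (v : Hd J p) : pj J p v = v :=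
  Submodule.orthogonalProjectionOnto_mem_subspace_eq_self v

theorem coe_pj {J p : En (Fin N)} {v : L2c (Fin N)} (hv : v ∈ Hd J p) :
    (pj J p v : L2c (Fin N)) = v := congrArg Subtype.val (pj_coe ⟨v, hv⟩)

theorem crow_heq {κ : Cut M lam} {B : Base M ι lam} {F : Fr I M ι} {σ : Pc r B κ}
    {c c' : Cfg M ι lam r} (e : c = c') {ψ : L2c (Fin c.m.N)} {ψ' : L2c (Fin c'.m.N)}
    (k : HEq ψ ψ') : HEq (crow κ B F σ c ψ) (crow κ B F σ c' ψ') := by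
  subst e; cases k; rfl

theorem crow_coe {κ : Cut M lam} {B : Base M ι lam} {F : Fr I M ι} {σ : Pc r B κ}
    {c : Cfg M ι lam r} (ψ : κ.H B c.m) :
    crow κ B F σ c ψ = ((κ.T B F c.m c.W - σ c) ψ).1 := by
  rw [crow, pj_coe, sub_self, add_zero]

section ext
variable (s : Sid 𝔉 N Jc U Up R) (θ : T → T') {A : s.md.Cn} (H1 : s.md.OK I 𝔉'.B)
  (H2 : s.md.IsConn 𝔉'.B 𝔉'.G0 A) (ct : h → Cut M lam) {g : Type} [Fintype g] (κ : g → h)
  (ε : h → g) (δ : ℝ) (k) (c : Cm N r h R)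

/-- the chart with the fields of the cuts -/
def thE (v : s.EE r ct δ k) : (rf s H1 H2).C r k × ∀ i, HH (rf s H1 H2) (ct (κ i)) :=
  (th k s θ H1 H2 (s.Fw δ).toPre c.z0 (v.1, v.2.1, v.2.2.1, v.2.2.2.1),
    fun i => pj _ _ (c.ψ0 (κ i) + v.2.2.2.2 (κ i)))

variable (n m) in
/-- the map of the equations -/
def jE : CL ((rf s H1 H2).Y n m k × (∀ i, HH (rf s H1 H2) (ct (κ i))) × (g → ℝ))
    (s.Y1 n m ct δ k) :=
  ((tr k 𝔉'.F0.toPre (s.Fw δ).toPre (rf s H1 H2).Pm s.Pm).prodMap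
    ((tr k 𝔉'.F0.toPre (s.Fw δ).toPre (rf s H1 H2).P2 s.P2).prodMap
      ((-ContinuousLinearMap.id ℝ (Fin n → ℂ)).prodMap (.id ℝ (Fin m → ℝ))))).prodMap
    ((ContinuousLinearMap.pi fun i => pj Jc (s.md.pp 𝔉.B (ct i).x0) ∘L
      (Hd Jc (s.md.pp 𝔉'.B (ct (κ (ε i))).x0)).subtypeL ∘L
        ContinuousLinearMap.proj (φ := fun i => HH (rf s H1 H2) (ct (κ i))) (ε i)).prodMap
      (ContinuousLinearMap.pi fun i => ContinuousLinearMap.proj (φ := fun _ : g => ℝ) (ε i)))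

theorem jE_apply (y : (rf s H1 H2).Y n m k × (∀ i, HH (rf s H1 H2) (ct (κ i))) × (g → ℝ)) :
    jE n m k s H1 H2 ct κ ε δ y =
    ((tr k 𝔉'.F0.toPre (s.Fw δ).toPre (rf s H1 H2).Pm s.Pm y.1.1,
      tr k 𝔉'.F0.toPre (s.Fw δ).toPre (rf s H1 H2).P2 s.P2 y.1.2.1, -y.1.2.2.1, y.1.2.2.2),
      fun i => pj Jc (s.md.pp 𝔉.B (ct i).x0) (y.2.1 (ε i)).1, fun i => y.2.2 (ε i)) := rfl

variable {s θ ct κ ε δ k c} {O : Set T} (X : Two 𝔉 𝔉' θ O) (H : s.OK)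
include X H

omit H in
theorem mem_Hd {x : M} {v : L2c (Fin N)} :
    v ∈ Hd Jc (s.md.pp 𝔉'.B x) ↔ v ∈ Hd Jc (s.md.pp 𝔉.B x) := by rw [X.B]

theorem jE_inj (h1 : ∀ i, ε (κ i) = i) : Injective (jE n m k s H1 H2 ct κ ε δ) := fun y y' e => by
  rw [jE_apply, jE_apply] at e
  obtain ⟨e1, e5⟩ := Prod.mk.inj e
  obtain ⟨e1, e2⟩ := Prod.mk.inj e1
  obtain ⟨e2, e3⟩ := Prod.mk.inj e2
  obtain ⟨e3, e4⟩ := Prod.mk.inj e3
  obtain ⟨e5, e6⟩ := Prod.mk.inj e5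
  refine Prod.ext (Prod.ext (tr_inj (Pm_eq H1 H2 X H) e1) (Prod.ext (tr_inj (P2_eq H1 H2 X H) e2)
    (Prod.ext (neg_injective e3) e4)))
    (Prod.ext (funext fun i => ?_) (funext fun i => h1 i ▸ congrFun e6 (κ i)))
  have k : ∀ z : ∀ i, HH (rf s H1 H2) (ct (κ i)),
      (pj Jc (s.md.pp 𝔉.B (ct (κ i)).x0) (z (ε (κ i))).1).1 = (z i).1 := fun z => by
    rw [show (z (ε (κ i))).1 = (z i).1 from congrArg (fun j => (z j).1) (h1 i)]
    exact coe_pj ((mem_Hd X).1 (z i).2)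
  exact Subtype.ext ((k _).symm.trans ((congrArg Subtype.val (congrFun e5 (κ i))).trans (k _)))

theorem sm_thE (hk : 3 ≤ k) :
    ContDiffOn ℝ ∞ (thE k s θ H1 H2 ct κ δ c) {v | v.2.1 ∈ O} := by
  have h1 : ContDiff ℝ ∞ fun v : s.EE r ct δ k => (v.1, v.2.1, v.2.2.1, v.2.2.2.1) :=
    contDiff_fst.prodMk (contDiff_snd.fst.prodMk
      (contDiff_snd.snd.fst.prodMk contDiff_snd.snd.snd.fst))
  have h2 : ∀ i, ContDiff ℝ ∞ fun v : s.EE r ct δ k => v.2.2.2.2 i := fun i =>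
    contDiff_pi.1 contDiff_snd.snd.snd.snd i
  have h3 : ∀ i, ContDiff ℝ ∞ fun v : s.EE r ct δ k => c.ψ0 i + (v.2.2.2.2 i).1 := fun i =>
    contDiff_const.add ((Hd Jc (s.md.pp 𝔉.B (ct i).x0)).subtypeL.contDiff.comp (h2 i))
  exact ((sm_th H1 H2 (F := (s.Fw δ).toPre) c.z0 X H hk).comp h1.contDiffOn fun _ k => k).prodMk
    (contDiff_pi.2 fun i =>
      (pj Jc (s.md.pp 𝔉'.B (ct (κ i)).x0)).contDiff.comp (h3 (κ i))).contDiffOn

variable (hδ : 0 ≤ δ) (hk : 4 ≤ k) (hA : ∀ t ∈ O, ∀ a x,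
  (1 - s.p x) * 𝔉'.W0 s.md A (θ t) a x = (1 - s.p x) * 𝔉.W0 s.md s.A0 t a x)
include hδ hk hA

theorem pt_thE (w : Sec I s.bd.pC) (q : s.PH r ct) (hq : q.1 ∈ O) :
    ∃ y : Pnt (rf s H1 H2) r, y.t = θ q.1 ∧ y.cfg = s.cfg c w (s.emb q) ∧
      thE k s θ H1 H2 ct κ δ c (s.sp δ k w q) =
        (y.pt k, fun i => pj _ _ (c.ψ0 (κ i) + (q.2.2.2 (κ i)).1)) :=
  let ⟨_, hS⟩ := H.sup hδ
  let ⟨y, h1, h2, h3⟩ := pt_th H1 H2 X H hS (k := k) (by omega) hA c w (s.emb q) hq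
  ⟨y, h1, h2, Prod.ext h3.symm rfl⟩

variable (h1 : ∀ i, κ (ε i) = i)
  (h0 : ∀ i, c.ψ0 i ∈ Hd Jc (s.md.pp 𝔉.B (ct i).x0)) {e : Eqn 𝔉 r n m ct}
  {τ : T' → PtX M ι lam r n m} {f : (rf s H1 H2).C r k → (rf s H1 H2).Y n m k} (hf : RepF τ f)
  (hτ : ∀ t ∈ O, ∀ x, (τ (θ t)).D x = (e.e t).D x ∧ (τ (θ t)).C x = (e.e t).C x ∧
    (τ (θ t)).S x = -(e.e t).S x ∧ (τ (θ t)).R x = (e.e t).R x)
  {Tq : ∀ i, (rf s H1 H2).C r k → CL (HH (rf s H1 H2) (ct (κ i))) (HH (rf s H1 H2) (ct (κ i)))}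
  (hT : ∀ i (y : Pnt (rf s H1 H2) r), ∀ t ∈ O, y.t = θ t → ∀ χ, (Tq i (y.pt k) χ).1 =
    crow (ct (κ i)) 𝔉.B (𝔉.G t).F (e.σ t (κ i)) y.cfg χ.1)
include h1 h0 hf hτ hT

omit hA in
theorem eq_pt {w : M → Cf ι (Fin N)} {q : s.PH r ct} (hv : q.1 ∈ O) {y : Pnt (rf s H1 H2) r}
    (e1 : y.t = θ q.1) (e2 : y.cfg = s.cfg c w (s.emb q)) {ψ : ∀ i, HH (rf s H1 H2) (ct (κ i))}
    (e3 : ∀ i, (ψ i).1 = c.ψ0 (κ i) + (q.2.2.2 (κ i)).1) {z : s.Y1 n m ct δ k × s.Y2 h δ k}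
    (V : s.Val c e δ k w (s.emb q) z) : z.1 = jE n m k s H1 H2 ct κ ε δ
      (f (y.pt k), fun i => Tq i (y.pt k) (ψ i), fun i => ‖ψ i‖ ^ 2 - 1) := by
  obtain ⟨_, hS⟩ := H.sup hδ
  have r0 := hf.2 y
  obtain ⟨t1, t2, t3, t4⟩ := hτ _ hv y.cfg
  have a1 : z.1.1.1 = tr k 𝔉'.F0.toPre (s.Fw δ).toPre (rf s H1 H2).Pm s.Pm (f (y.pt k)).1 := by
    refine val_injective hS hk ?_
    rw [V.D, val_tr X.ok'.sup hS hk (Pm_eq H1 H2 X H), r0.D, X.om', indicator_univ, e1, t1]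
    exact eq_of_heq (congr_arg_heq (e.e q.1).D e2.symm)
  have a2 : z.1.1.2.1 = tr k 𝔉'.F0.toPre (s.Fw δ).toPre (rf s H1 H2).P2 s.P2 (f (y.pt k)).2.1 := by
    refine val_injective hS hk ?_
    rw [V.C, val_tr X.ok'.sup hS hk (P2_eq H1 H2 X H), r0.C, X.om, indicator_univ, e1, t2]
    exact eq_of_heq (congr_arg_heq (e.e q.1).C e2.symm)
  have a3 : z.1.1.2.2.1 = -(f (y.pt k)).2.2.1 := by
    rw [r0.S, e1, t3, e2, neg_neg]
    exact congrArg (·.1.1) V.e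
  have a4 : z.1.1.2.2.2 = (f (y.pt k)).2.2.2 := by
    rw [r0.R, e1, t4, e2]
    exact congrArg (·.1.2) V.e
  have a5 : ∀ i, (z.1.2.1 i).1 = (Tq (ε i) (y.pt k) (ψ (ε i))).1 := fun i => by
    rw [hT _ y _ hv e1, e3]
    refine (congrFun (congrArg (·.2.1) V.e) i).trans ?_
    generalize ε i = j, h1 i = k
    subst k
    exact eq_of_heq (crow_heq e2.symm HEq.rfl)
  have a6 : ∀ i, z.1.2.2 i = ‖(ψ (ε i)).1‖ ^ 2 - 1 := fun i => by
    rw [e3, h1]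
    exact congrFun (congrArg (·.2.2.1) V.e) i
  rw [jE_apply]
  exact Prod.ext (Prod.ext a1 (Prod.ext a2 (Prod.ext a3 a4))) (Prod.ext
    (funext fun i => (pj_coe _).symm.trans (congrArg (pj _ _) (a5 i))) (funext a6))

/-- **the equations in the two charts** -/
theorem eq_thE (cT : ∀ i, ContinuousOn (Tq i) ((rf s H1 H2).U r k))
    {Hh : s.EE r ct δ k → s.Y1 n m ct δ k × s.Y2 h δ k} (hH : s.Rep c e δ k Hh)
    {v : s.EE r ct δ k} (hv : v.2.1 ∈ O) :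
    (Hh v).1 = jE n m k s H1 H2 ct κ ε δ (f (thE k s θ H1 H2 ct κ δ c v).1,
      fun i => Tq i (thE k s θ H1 H2 ct κ δ c v).1 ((thE k s θ H1 H2 ct κ δ c v).2 i),
      fun i => ‖(thE k s θ H1 H2 ct κ δ c v).2 i‖ ^ 2 - 1) := by
  obtain ⟨u, q⟩ := v
  have c0 : Continuous fun u : (s.Fw δ).H (k + 1) s.bd.pC => ((u, q) : s.EE r ct δ k) :=
    continuous_id.prodMk continuous_const
  have c1 : Continuous fun u => thE k s θ H1 H2 ct κ δ c (u, q) :=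
    (sm_thE H1 H2 X H (k := k) (by omega)).continuousOn.comp_continuous c0 fun _ => hv
  have mU : ∀ u, (thE k s θ H1 H2 ct κ δ c (u, q)).1 ∈ (rf s H1 H2).U r k := fun _ => X.mp hv
  have c2 : Continuous fun u => f (thE k s θ H1 H2 ct κ δ c (u, q)).1 :=
    hf.1.continuousOn.comp_continuous c1.fst mU
  have c3 : ∀ i, Continuous fun u => (thE k s θ H1 H2 ct κ δ c (u, q)).2 i := fun i =>
    continuous_pi_iff.1 c1.snd i
  have c4 : ∀ i, Continuous fun u => Tq i (thE k s θ H1 H2 ct κ δ c (u, q)).1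
      ((thE k s θ H1 H2 ct κ δ c (u, q)).2 i) := fun i =>
    ((cT i).comp_continuous c1.fst mU).clm_apply (c3 i)
  have c5 : Continuous fun u => (Hh (u, q)).1 :=
    (hH.sm.continuousOn.comp_continuous c0 fun _ => X.sub hv).fst
  refine H_eq c5 ((jE n m k s H1 H2 ct κ ε δ).continuous.comp (c2.prodMk ((continuous_pi c4).prodMk
    (continuous_pi fun i => ((c3 i).norm.pow 2).sub continuous_const)))) (fun w => ?_) u
  obtain ⟨y, e1, e2, e3⟩ := pt_thE (κ := κ) (c := c) H1 H2 X H hδ hk hA w q hv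
  have := eq_pt H1 H2 X H hδ hk h1 h0 hf hτ hT hv e1 e2
    (ψ := fun i => pj _ _ (c.ψ0 (κ i) + (q.2.2.2 (κ i)).1))
    (fun i => coe_pj ((mem_Hd X).2 (add_mem (h0 _) (q.2.2.2 _).2))) (hH.val w q (X.sub hv))
  exact this.trans (congrArg (fun v : (rf s H1 H2).C r k × ∀ i, HH (rf s H1 H2) (ct (κ i)) =>
    jE n m k s H1 H2 ct κ ε δ (f v.1, fun i => Tq i v.1 (v.2 i), fun i => ‖v.2 i‖ ^ 2 - 1)) e3.symm)

end ext

end Crest.Agent.X212.Chg68
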