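import Crest.Agent.X212.Kit16.Pt
import Crest.Agent.X212.Gl67.Brg
import Crest.Agent.X212.Met55.Fam
import Crest.Agent.X212.Spn45.Fam

/-!
# Row 212, GL-CHG (helper68): change of chart between two families over one base
-/

set_option autoImplicit false
set_option linter.unusedSectionVars false
noncomputable section
open scoped Manifold ContDiff Topology InnerProductSpace
open MeasureTheory Set Function Filter

namespace Crest.Agent.X212.Chg68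
open An Prm93 Sob92 Mod61 Gl67 Kit16
open Map77 (Cf fa fp maps_f2 maps_s2)
open Wz78 (idx_apply)

variable {E : Type} [NormedAddCommGroup E] [NormedSpace ℝ E] [FiniteDimensional ℝ E]
  [MeasurableSpace E] [BorelSpace E]
  {HM : Type} [TopologicalSpace HM] {I : ModelWithCorners ℝ E HM} [I.Boundaryless]
  {M : Type} [TopologicalSpace M] [ChartedSpace HM M] [IsManifold I ∞ M]
  [MeasurableSpace M] [T2Space M] [BorelSpace M] [SecondCountableTopology M] [CompactSpace M]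
  {ι lam h : Type} [Fintype ι] [Fintype lam] [Fintype h]
  {T T' U Up R : Type} [NormedAddCommGroup T] [NormedSpace ℝ T] [NormedAddCommGroup T']
  [NormedSpace ℝ T'] [NormedAddCommGroup U]
  [NormedSpace ℝ U] [NormedAddCommGroup Up] [NormedSpace ℝ Up] [NormedAddCommGroup R]
  [NormedSpace ℝ R] {N r n m k : ℕ} {Jc : En (Fin N)} {𝔉 : Fam I M ι lam T}
  {𝔉' : Fam I M ι lam T'}

section tr
variable {V : Type} [NormedAddCommGroup V] [InnerProductSpace ℝ V] [CompleteSpace V]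
  {F F' : Pre I M ι} {p p' : M → CL V V}

variable (F F' k p p') in
/-- the identity between two Sobolev spaces -/
def tr : CL (F.H k p) (F'.H k p') := F.liftT k k p F' p' id

theorem tr_inj (e : p = p') : Injective (tr k F F' p p') := by
  subst e
  exact (chg k p (cmp_compact F F')).injective

theorem val_tr {S S' : ℝ} (hS : Sup F S) (hS' : Sup F' S') (hk : 4 ≤ k) (e : p = p')
    (u : F.H k p) : F'.val k p' (tr k F F' p p' u) = F.val k p u := by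
  subst e
  refine funext fun x => H_eq (f := fun u => F'.val k p (tr k F F' p p u) x)
    (g := fun u => F.val k p u x) ((continuous_val_apply x).comp (tr k F F' p p).continuous)
    (continuous_val_apply x) (fun w => ?_) u
  rw [show tr k F F' p p (F.toH k p w) = _ from chg_toH (cmp_compact F F') w, val_toH hS hk,
    val_toH hS' hk]

end tr

theorem sb_chg {Y : Type} [NormedAddCommGroup Y] [NormedSpace ℝ Y] {F : Pre I M ι}
    (F' : Pre I M ι) {O : Set T} {f : T → M → Y} (h : SB F O f) : SB F' O f :=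
  (mix_fT F F').1.SB (fun a b => Cb_of_compact ((mix_fT F F').2 a b)) h

theorem co_eq {F : Fr I M ι} {x : M} {X Y : ι → ℝ} (e : ∑ b, X b • F.e b x = ∑ b, Y b • F.e b x)
    (hX : ∀ b, ∑ c, X c * F.P c b x = X b) (hY : ∀ b, ∑ c, Y c * F.P c b x = Y b) : X = Y := by
  funext b
  have := F.P_ker x (fun c => X c - Y c) (by simp only [sub_smul, Finset.sum_sub_distrib, e, sub_self]) b
  simp only [sub_mul, Finset.sum_sub_distrib, sub_eq_zero, F.P_symm b, mul_comm (F.P _ b x)] at this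
  rw [← hX, this, hY]

variable (𝔉 𝔉') in
/-- two families over one base, with the same backgrounds along `θ` over `O` -/
structure Two (θ : T → T') (O : Set T) : Prop where
  ok : 𝔉.OK
  ok' : 𝔉'.OK
  B : 𝔉'.B = 𝔉.B
  om : 𝔉'.Om = univ
  om' : 𝔉'.Om' = univ
  sub : O ⊆ 𝔉.Q
  mp : MapsTo θ O 𝔉'.Q
  sm : ContDiff ℝ ∞ θ
  G : ∀ t ∈ O, 𝔉'.G (θ t) = 𝔉.G t

theorem q_W0 {μ : Md M ι lam} {B : Base M ι lam} (H : μ.OK I B) (A : μ.Cn) (t : T) (a : ι) (x : M) :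
    (1 - μ.p x) * 𝔉.W0 μ A t a x = ∑ b, 𝔉.S t x a b • ((1 - μ.p x) * A b x) := by
  have h1 : ∀ b c, (1 - μ.p x) * (μ.ρ b x * μ.ρ c x) = 0 := fun b c => by
    rw [← mul_assoc, sub_mul, one_mul, (H.cl x).pl, sub_self, zero_mul]
  have h2 : (1 - μ.p x) * (μ.J * μ.p x) = 0 := by
    rw [H.Jp, ← mul_assoc, sub_mul, one_mul, H.pidem, sub_self, zero_mul]
  simp only [Fam.W0, mul_add, Finset.mul_sum, mul_smul_comm, h1, h2, smul_zero,
    Finset.sum_const_zero, add_zero]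

namespace Two
variable {θ : T → T'} {O : Set T} (X : Two 𝔉 𝔉' θ O)
include X

theorem coc {t : T} (ht : t ∈ O) (x : M) (a : ι) :
    (fun c => ∑ b, 𝔉'.S (θ t) x a b * Met55.trS 𝔉.G0.F 𝔉'.G0.F x b c) = 𝔉.S t x a := by
  refine co_eq (F := 𝔉.G0.F) (x := x) ?_ (fun c => ?_) fun c => ?_
  · have h1 := X.ok'.mix _ (X.mp ht) a x
    have h2 := X.ok.mix _ (X.sub ht) a x
    rw [X.G t ht] at h1
    rw [X.ok.e0, ← h2, h1, ← X.ok'.e0, ← X.ok.e0]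
    simp only [Met55.trS_mix 𝔉.G0.F 𝔉'.G0.F _ x, Finset.smul_sum, smul_smul, Finset.sum_smul]
    exact Finset.sum_comm
  · simp only [Finset.sum_mul, mul_assoc]
    rw [Finset.sum_comm]
    simp only [← Finset.mul_sum, Met55.trS_P]
  · rw [X.ok.G0.P]
    exact X.ok.SP t (X.sub ht) x a c

/-- the reference connection for the second family -/
theorem exists_A {μ : Md M ι lam} (H : μ.OK I 𝔉.B) {A0 : μ.Cn} (C : μ.IsConn 𝔉.B 𝔉.G0 A0) :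
    ∃ A, μ.IsConn 𝔉'.B 𝔉'.G0 A ∧ ∀ t ∈ O, ∀ a x,
      (1 - μ.p x) * 𝔉'.W0 μ A (θ t) a x = (1 - μ.p x) * 𝔉.W0 μ A0 t a x := by
  refine ⟨_, X.B ▸ Met55.isConn_chg X.ok.B X.ok.G0 (X.B ▸ X.ok'.G0) H C, fun t ht a x => ?_⟩
  have := fun b => q_W0 (𝔉 := Met55.fam 𝔉'.B 𝔉.F0 𝔉.G0 (fun _ : T => 𝔉'.G0) univ univ univ) H A0 t b x
  rw [q_W0 H, q_W0 H, ← X.coc ht]
  simp only [Finset.sum_smul, mul_smul]
  rw [Finset.sum_comm]
  refine Finset.sum_congr rfl fun b _ => ?_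
  rw [← Finset.smul_sum]
  exact congrArg _ (this b)

end Two

theorem sb_ofV {V : Type} [NormedAddCommGroup V] [InnerProductSpace ℝ V] [CompleteSpace V]
    {F : Fr I M ι} {p : M → CL V V} {S : ℝ} (hS : Sup F.toPre S) (hk : 4 ≤ k) (hp : F.Cb p)
    (hi : ∀ x v, p x (p x v) = p x v) {O : Set T} {f : T → M → V} (h : SB F.toPre O f)
    (hf : ∀ t ∈ O, ∀ x, p x (f t x) = f t x) :
    ContDiffOn ℝ ∞ (fun t => ofV F.toPre k p (f t)) O := by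
  classical
  let s : T → Sec I p := fun t => if e : t ∈ O then
    ⟨f t, Cb.sm (h.cb t e), .of_compactSpace _, hf t e⟩ else 0
  have e : ∀ t ∈ O, (s t).1 = f t := fun t ht => by simp only [s, dif_pos ht]
  exact (SB.toH_compact (s := s) (h.congr e) hp hi).congr fun t ht => by
    rw [← e t ht, Map77.ofV_sec hS hk]

theorem p1_idx {μ : Md M ι lam} {B : Base M ι lam} {x : M} {S : ι → ι → ℝ} {η : Fm ι μ.A}
    (hη : ∀ a, η a ∈ μ.gS x) (hS : ∀ a b, ∑ c, B.P a c x * S c b = S a b) :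
    μ.p1 B x (idx S (.id ℝ _) η) = idx S (.id ℝ _) η :=
  Spn45.p1_iff.2 ⟨fun a => by
    rw [idx_apply]
    exact Submodule.sum_mem _ fun b _ => Submodule.smul_mem _ _ (hη b), fun a => by
    simp only [idx_apply, Finset.smul_sum, smul_smul]
    rw [Finset.sum_comm]
    simp only [← Finset.sum_smul, hS]⟩

theorem add_dif {μ : Md M ι lam} {W W' : μ.Cn} {a : ι} {x : M}
    (e : (1 - μ.p x) * W a x = (1 - μ.p x) * W' a x) :
    W a x + opL (Spn45.dif μ W W' x a) = W' a x := by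
  rw [Spn45.dif_apply, Wz78.opL_hsL, mul_sub]
  rw [sub_mul, sub_mul, one_mul, one_mul] at e
  rw [← add_sub_assoc, add_sub_right_comm, e, sub_add_cancel]

theorem sb_W0 (h : 𝔉.OK) {μ : Md M ι lam} {B : Base M ι lam} (H : μ.OK I B) {A : μ.Cn}
    (hA : ∀ a, Sm I (A a)) (a : ι) : SB 𝔉.F0.toPre 𝔉.Q fun t => 𝔉.W0 μ A t a :=
  ((SB.sum fun b => (h.sS a b).smul (SB.fixed (Cb_of_compact (hA b)))).add
    (SB.sum fun b => SB.sum fun c => (h.scf a b c).smul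
      ((SB.fixed (Cb_of_compact (H.sρ b))).mul (SB.fixed (Cb_of_compact (H.sρ c)))))).add
    ((h.sla a).smul ((SB.fixed (Cb_const μ.J)).mul (SB.fixed (Cb_of_compact H.sp))))

theorem sb_idx {F : Pre I M ι} {O : Set T} {S : T → M → ι → ι → ℝ}
    (h : ∀ a b, SB F O fun t x => S t x a b) :
    SB F O fun t x => idx (S t x) (.id ℝ (HS (Fin N))) :=
  Std94.Kl.idx (K := Spn45.sbK F O) (S := fun z => S z.1 z.2) (T := fun _ => .id ℝ (HS (Fin N))) h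
    (SB.fixed (Cb_const _))

section side
variable (s : Sid 𝔉 N Jc U Up R) (θ : T → T') (A : s.md.Cn)

variable (𝔉') in
/-- the change of the coordinates of forms -/
def mA (t : T) (x : M) : CL (Fm ι (HS (Fin N))) (Fm ι (HS (Fin N))) :=
  idx (𝔉'.Si (θ t) x) (.id ℝ _) ∘L idx (𝔉.S t x) (.id ℝ _)

variable (𝔉') in
/-- the coordinates of the base connection -/
def ga (z : T × U) (x : M) : Fm ι (HS (Fin N)) :=
  idx (𝔉'.Si (θ z.1) x) (.id ℝ _)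
    (Spn45.dif s.md (𝔉'.W0 s.md A (θ z.1)) (𝔉.W0 s.md s.A0 z.1) x) +
      mA (𝔉 := 𝔉) 𝔉' θ z.1 x (s.b x z.2)

variable {A} (H1 : s.md.OK I 𝔉'.B) (H2 : s.md.IsConn 𝔉'.B 𝔉'.G0 A)

/-- the reference in the second family -/
abbrev rf : Ref 𝔉' := Rz.ref 𝔉' ⟨⟨s.md, A⟩, H1, H2⟩

variable (F : Pre I M ι) (k) (z0 : EuclideanSpace ℂ (Fin r))

/-- the chart -/
def th (v : F.H (k + 1) s.bd.pC × T × U × EuclideanSpace ℂ (Fin r)) : (rf s H1 H2).C r k :=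
  (ofV 𝔉'.F0.toPre _ _ (ga 𝔉' s θ A (v.2.1, v.2.2.1)) + 𝔉'.F0.mulH _ s.bd.pC _
      (fun x => mA (𝔉 := 𝔉) 𝔉' θ v.2.1 x ∘L fa) (tr _ F _ _ _ v.1),
    ofV 𝔉'.F0.toPre _ _ s.Φ0 + 𝔉'.F0.mulH _ s.bd.pC _ (fun _ => fp) (tr _ F _ _ _ v.1),
    z0 + v.2.2.2, θ v.2.1)

variable {s θ F k} {O : Set T} (X : Two 𝔉 𝔉' θ O) (H : s.OK)
include X H

theorem P1_eq : (rf s H1 H2).P1 = s.md.p1 𝔉.B := funext fun x => by
  rw [Ref.P1, Ref.Pg, X.om, indicator_univ, X.B]; rfl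

theorem Pp_eq : (rf s H1 H2).Pp = s.md.pp 𝔉.B := by rw [Ref.Pp, X.om', indicator_univ, X.B]

theorem Pm_eq : (rf s H1 H2).Pm = s.Pm := by rw [Ref.Pm, Sid.Pm, X.om', H.om.2, X.B]

theorem P2_eq : (rf s H1 H2).P2 = s.P2 := funext fun x => by
  rw [Ref.P2, Sid.P2, Ref.Pg, Sid.Pg, X.om, H.om.1, X.B]

omit X in
theorem fa_mem {x : M} {v : Cf ι (Fin N)} (hv : s.bd.pC x v = v) (a : ι) : fa v a ∈ s.md.gS x :=
  idx_mem (o := s.o H) (maps_f2 x v hv) a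

omit X in
theorem fp_mem {x : M} {v : Cf ι (Fin N)} (hv : s.bd.pC x v = v) : s.md.pp 𝔉.B x (fp v) = fp v :=
  ind_fix (maps_s2 x v hv)

omit H in
theorem p1_Si {t : T} (ht : t ∈ O) {x : M} {η : Fm ι (HS (Fin N))} (hη : ∀ a, η a ∈ s.md.gS x) :
    s.md.p1 𝔉.B x (idx (𝔉'.Si (θ t) x) (.id ℝ _) η) = idx (𝔉'.Si (θ t) x) (.id ℝ _) η :=
  p1_idx hη (X.B ▸ X.ok'.PSi _ (X.mp ht) x)

omit H in
theorem p1_mA {t : T} (ht : t ∈ O) {x : M} {η : Fm ι (HS (Fin N))} (hη : ∀ a, η a ∈ s.md.gS x) :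
    s.md.p1 𝔉.B x (mA (𝔉 := 𝔉) 𝔉' θ t x η) = mA (𝔉 := 𝔉) 𝔉' θ t x η :=
  p1_Si X ht (Spn45.p1_iff.1 (p1_idx hη (X.ok.PS _ (X.sub ht) x))).1

include H1 H2 in
theorem p1_dif {t : T} (ht : t ∈ O) (x : M) :
    s.md.p1 𝔉.B x (Spn45.dif s.md (𝔉'.W0 s.md A (θ t)) (𝔉.W0 s.md s.A0 t) x) =
      Spn45.dif s.md (𝔉'.W0 s.md A (θ t)) (𝔉.W0 s.md s.A0 t) x :=
  Spn45.p1_dif (G := 𝔉.G t) (X.B ▸ X.G t ht ▸ X.ok'.conn _ _ H1 H2 _ (X.mp ht))
    (X.ok.conn _ _ H.ok H.conn t (X.sub ht)) H.ok x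

include H1 H2 in
theorem p1_ga {z : T × U} (hz : z.1 ∈ O) (x : M) :
    s.md.p1 𝔉.B x (ga 𝔉' s θ A z x) = ga 𝔉' s θ A z x := by
  rw [ga, map_add, p1_Si X hz (Spn45.p1_iff.1 (p1_dif H1 H2 X H hz x)).1,
    p1_mA X hz (Spn45.p1_iff.1 (H.pb x z.2)).1]

omit H in
theorem sb_Si : SB 𝔉'.F0.toPre O fun t x => idx (𝔉'.Si (θ t) x) (.id ℝ (HS (Fin N))) :=
  (sb_idx X.ok'.sSi).reparam X.sm.contDiffOn X.mp

omit H in
theorem sb_mA : SB 𝔉'.F0.toPre O (mA (𝔉 := 𝔉) (N := N) 𝔉' θ) :=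
  (sb_Si X).comp (sb_chg _ ((sb_idx X.ok.sS).mono X.sub))

include H2 in
theorem sb_ga : SB 𝔉'.F0.toPre (Prod.fst ⁻¹' O) (ga 𝔉' s θ A) := by
  have h1 : SB 𝔉'.F0.toPre O fun t =>
      Spn45.dif s.md (𝔉'.W0 s.md A (θ t)) (𝔉.W0 s.md s.A0 t) :=
    Spn45.kl_dif (K := Spn45.sbK 𝔉'.F0.toPre O) (φ := Prod.snd)
      (W := fun z => 𝔉'.W0 s.md A (θ z.1)) (W' := fun z => 𝔉.W0 s.md s.A0 z.1)
      (SB.fixed (Cb_of_compact H.ok.sp))
      (fun a => (sb_W0 X.ok' H.ok H2.cc.sm a).reparam X.sm.contDiffOn X.mp)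
      fun a => sb_chg _ ((sb_W0 X.ok H.ok H.conn.cc.sm a).mono X.sub)
  exact (((sb_Si X).app h1).reparam contDiffOn_fst fun _ k => k).add
    (((sb_mA X).reparam contDiffOn_fst fun _ k => k).app
      ((SB.fixed (Cb_of_compact (Cb.sm H.cb))).app (SB.par contDiffOn_snd)))

theorem mp_A {t : T} (ht : t ∈ O) :
    Maps s.bd.pC (rf s H1 H2).P1 fun x => mA (𝔉 := 𝔉) 𝔉' θ t x ∘L fa := fun x v hv => by
  rw [P1_eq H1 H2 X H]
  exact p1_mA X ht (fa_mem H hv)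

theorem mp_p : Maps s.bd.pC (rf s H1 H2).Pp fun _ => fp := fun x v hv => by
  rw [Pp_eq H1 H2 X H]
  exact fp_mem H hv

theorem sm_th (hk : 3 ≤ k) : ContDiffOn ℝ ∞ (th k s θ H1 H2 F z0) {v | v.2.1 ∈ O} := by
  have o := Map77.ok_bd (rf s H1 H2) X.ok'
  have h1 := sb_ofV (k := k + 1) X.ok'.sup (by omega) (X.ok'.cP1 (rf s H1 H2)) o.prj1.idem
    (sb_ga H2 X H) fun z hz x => by rw [P1_eq H1 H2 X H]; exact p1_ga H1 H2 X H hz x
  have h2 := SB.mulH (k := k + 1) (p := s.bd.pC) ((sb_mA X).comp (SB.fixed (Cb_const fa)))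
    (X.ok'.cP1 (rf s H1 H2)) o.prj1.idem fun t ht => mp_A H1 H2 X H ht
  have h3 : ContDiff ℝ ∞ fun v : F.H (k + 1) s.bd.pC × T × U × EuclideanSpace ℂ (Fin r) =>
      tr (k + 1) F 𝔉'.F0.toPre s.bd.pC s.bd.pC v.1 := (tr _ _ _ _ _).contDiff.comp contDiff_fst
  exact ((h1.comp (contDiff_snd.fst.prodMk contDiff_snd.snd.fst).contDiffOn fun _ k => k).add
    ((h2.comp contDiff_snd.fst.contDiffOn fun _ k => k).clm_apply h3.contDiffOn)).prodMk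
    ((contDiff_const.add ((𝔉'.F0.mulH _ _ _ _).contDiff.comp h3)).prodMk
      ((contDiff_const.add contDiff_snd.snd.snd).prodMk (X.sm.comp contDiff_snd.fst))).contDiffOn

theorem W_eq (hA : ∀ t ∈ O, ∀ a x,
      (1 - s.p x) * 𝔉'.W0 s.md A (θ t) a x = (1 - s.p x) * 𝔉.W0 s.md s.A0 t a x)
    (w : Sec I s.bd.pC) {t : T} (u : U) (hq : t ∈ O) :
    (rf s H1 H2).W (θ t) (ga 𝔉' s θ A (t, u) + fun x => (mA (𝔉 := 𝔉) 𝔉' θ t x ∘L fa) (w.1 x)) =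
      s.md.addC (𝔉.W0 s.md s.A0 t) fun x => idx (𝔉.S t x) (.id ℝ _) (fa (w.1 x) + s.b x u) := by
  funext a x
  have h1 := Spn45.p1_iff.1 (p1_dif H1 H2 X H hq x)
  have h0 : ∀ a, (fa (w.1 x) + s.b x u) a ∈ s.md.gS x := fun a =>
    (s.md.gS x).add_mem (fa_mem H (w.2.2.2 x) a) ((Spn45.p1_iff.1 (H.pb x u)).1 a)
  have h2 := Spn45.p1_iff.1 (p1_idx (μ := s.md) (B := 𝔉.B) h0 (X.ok.PS _ (X.sub hq) x))
  have h3 : ∀ η : Fm ι (HS (Fin N)), (∀ a, ∑ b, 𝔉.B.P a b x • η b = η a) →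
      idx (𝔉'.S (θ t) x) (.id ℝ _) (idx (𝔉'.Si (θ t) x) (.id ℝ _) η) a = η a := fun η k => by
    simp only [Map77.idx_idx, Map77.idx_apply, X.ok'.SSi _ (X.mp hq), X.B,
      ContinuousLinearMap.comp_apply, ContinuousLinearMap.id_apply, k]
  have h4 : (ga 𝔉' s θ A (t, u) + fun x => (mA (𝔉 := 𝔉) 𝔉' θ t x ∘L fa) (w.1 x)) x =
      idx (𝔉'.Si (θ t) x) (.id ℝ _) (Spn45.dif s.md (𝔉'.W0 s.md A (θ t)) (𝔉.W0 s.md s.A0 t) x +
        idx (𝔉.S t x) (.id ℝ _) (fa (w.1 x) + s.b x u)) := by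
    simp only [ga, mA, Pi.add_apply, map_add, ContinuousLinearMap.comp_apply]
    abel
  have h5 := h3 _ fun a => show ∑ b, _ • (_ + _ : Fm ι (HS (Fin N))) b = _ by
    simp only [PiLp.add_apply, smul_add, Finset.sum_add_distrib]
    exact congrArg₂ (· + ·) (h1.2 a) (h2.2 a)
  have : (rf s H1 H2).B0 := ⟨rfl⟩
  rw [Ref.W, Ref.A_eq, Md.addC, Md.addC, ← add_dif (μ := s.md) (W := 𝔉'.W0 s.md A (θ t))
    (W' := 𝔉.W0 s.md s.A0 t) (hA _ hq a x), h4, h5, PiLp.add_apply, map_add,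
    add_assoc]

/-- smooth points -/
theorem pt_th {S : ℝ} (hS : Sup F S) (hk : 3 ≤ k) (hA : ∀ t ∈ O, ∀ a x,
      (1 - s.p x) * 𝔉'.W0 s.md A (θ t) a x = (1 - s.p x) * 𝔉.W0 s.md s.A0 t a x)
    (c : Cm N r h R) (w : Sec I s.bd.pC) (q : PP T U r h N) (hq : q.1 ∈ O) :
    ∃ y : Pnt (rf s H1 H2) r, y.t = θ q.1 ∧ y.cfg = s.cfg c w q ∧
      y.pt k = th k s θ H1 H2 F c.z0 (F.toH _ _ w, q.1, q.2.1, q.2.2.1) := by
  have g1 : ga 𝔉' s θ A (q.1, q.2.1) ∈ Hs 𝔉'.F0.toPre (rf s H1 H2).P1 :=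
    hs_of X.ok' (Cb.sm ((sb_ga H2 X H).cb (q.1, q.2.1) hq)) fun x => by
      rw [P1_eq H1 H2 X H]; exact p1_ga H1 H2 X H (z := (q.1, q.2.1)) hq x
  have g2 : s.Φ0 ∈ Hs 𝔉'.F0.toPre (rf s H1 H2).Pp :=
    hs_of X.ok' (Cb.sm H.cΦ) fun x => by rw [Pp_eq H1 H2 X H]; exact H.pos x
  have c1 := ((sb_mA X).comp (SB.fixed (Cb_const (fa (ι := ι) (κ := Fin N))))).cb _ hq
  have w0 := Hs_sec X.ok'.sup w
  have e : 𝔉'.F0.val _ _ (tr (k + 1) F 𝔉'.F0.toPre s.bd.pC s.bd.pC (F.toH _ _ w)) = w.1 := by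
    rw [val_tr hS X.ok'.sup (by omega) rfl, val_toH hS (by omega)]
  let y : Pnt (rf s H1 H2) r :=
    ⟨ga 𝔉' s θ A (q.1, q.2.1) + fun x => (mA (𝔉 := 𝔉) 𝔉' θ q.1 x ∘L fa) (w.1 x),
      s.Φ0 + fun x => fp (w.1 x), c.z0 + q.2.2.1, θ q.1,
      add_mem g1 (Hs_mul X.ok'.sup c1 (mp_A H1 H2 X H hq) w0),
      add_mem g2 (Hs_mul X.ok'.sup (Cb_const _) (mp_p H1 H2 X H) w0), X.mp hq⟩
  refine ⟨y, rfl, ?_, C_ext X.ok' hk ?_ ?_ rfl⟩
  · exact congrArg₂ (fun W Φ => (⟨s.md, W, Φ, c.z0 + q.2.2.1⟩ : Cfg M ι lam r))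
      (W_eq H1 H2 X H hA w q.2.1 hq) (zero_add _)
  · rw [Pnt.val_α _ hk, th, val_add, val_ofV g1 (by omega)]
    funext x
    rw [Pi.add_apply, val_mulH X.ok'.sup (by omega) c1 (mp_A H1 H2 X H hq), e]
    rfl
  · rw [Pnt.val_φ _ hk, th, val_add, val_ofV g2 (by omega)]
    funext x
    rw [Pi.add_apply, val_mulH X.ok'.sup (by omega) (Cb_const _) (mp_p H1 H2 X H), e]
    rfl

end side

end Crest.Agent.X212.Chg68
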