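import Crest.Agent.X212.Chg68.Mod
import Crest.Agent.X212.Kit16.Mdl
import Crest.Agent.X212.Kof81.Defs

/-!
# Row 212, GL-CHG (helper68): the charts of the models of the cells
-/

set_option autoImplicit false
set_option linter.unusedSectionVars false
noncomputable section
open scoped Manifold ContDiff Topology InnerProductSpace
open MeasureTheory Set Function Filter

namespace Crest.Agent.X212.Chg68
open An An.Job M Mod61 Gl67 Kit16 Gj67 Kof81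

variable {Wi : Type} {X : Mf 4} {A κ lam : Type} [Fintype A] [Fintype κ] [Fintype lam]
  [DecidableEq lam] {M : Mark X A κ} {W : World M} {L : ML M lam} {Λ : Lns W L}
  {A' h : Type} [Fintype A'] [DecidableEq A'] [Fintype h] {r n : ℕ}
  {J : Job Wi Λ A' h r n} {σ : Cel A'} {a : A'}
  {U Up R : Type} [NormedAddCommGroup U] [NormedSpace ℝ U] [NormedAddCommGroup Up]
  [NormedSpace ℝ Up] [NormedAddCommGroup R] [NormedSpace ℝ R] {d : Dat J σ a U Up R}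
  {q₀ : Wi →₀ ℝ} {δ : ℝ}

theorem iso_of_eq {c : M.Cl} {y y' : J.Obc c} (H : y.Ok) (e1 : y.s = y'.s) (e2 : y.x = y'.x)
    (e3 : ∀ i, HEq (y.ψ i).1 (y'.ψ i).1) : Job.Iso y y' := by
  obtain ⟨s, x, _, ψ, _⟩ := y'
  obtain rfl : y.s = s := e1
  obtain rfl : y.x = x := e2
  obtain rfl : y.ψ = ψ := funext fun i => Subtype.ext (eq_of_heq (e3 i))
  exact H.refl

theorem sm_ee (s : A' → ℝ) (τ : ℝ) : ContDiff ℝ ∞ (ee (σ := σ) (a := a) s τ) :=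
  contDiff_pi.2 fun b => by
    by_cases k : σ b = none ∧ b ≠ a
    · simp only [ee, dif_pos k]; fun_prop
    · simp only [ee, dif_neg k]; fun_prop

theorem ee_self (s : A' → ℝ) (τ : ℝ) (t : Tc σ a) : ee s τ t a = τ := by simp [ee]

theorem ee_sp (H : d.OK q₀ δ) (τ : ℝ) (t : Tc σ a) : d.s τ t ∈ sp σ := fun b v e => by
  have : b ≠ a := fun k => by simp [k, H.fr] at e
  simp only [Dat.s, ee, e, this, reduceCtorEq, false_and, dite_false, if_false]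
  exact H.sol.cell.1 b v e

variable (d) in
/-- the domain of the chart -/
def dO (τ : ℝ) : Set (Tc σ a) := {t | ∀ b, (J.hd b).isSome → d.s τ t b < 1}

theorem ex_rho (H : d.OK q₀ δ) : ∃ ρ > 0, ∀ τ < 1, ∀ t, ‖t‖ < ρ → t ∈ dO d τ := by
  have : ∀ᶠ t : Tc σ a in 𝓝 0, ∀ b, d.y.s b.1 + t b < 1 := eventually_all.2 fun b =>
    (by fun_prop : Continuous fun t : Tc σ a => d.y.s b.1 + t b).continuousAt.eventually_lt
      continuousAt_const (by simpa using (H.int b.1 b.2.1 b.2.2).2)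
  obtain ⟨ρ, h0, h1⟩ := Metric.eventually_nhds_iff.1 this
  refine ⟨ρ, h0, fun τ hτ t ht b hb => ?_⟩
  by_cases k : σ b = none ∧ b ≠ a
  · simpa only [Dat.s, ee, dif_pos k] using h1 (by simpa using ht) ⟨b, k⟩
  by_cases e : b = a
  · rwa [e, Dat.s, ee_self]
  rcases k' : σ b with _ | _ | _
  · exact (k ⟨k', e⟩).elim
  · simp [ee_sp H τ t b _ k', b01]
  · simp [H.ok.soft σ H.mem b k'] at hb

variable (hJ : J.OK) {τ' : J.𝒦} (e : τ'.1 = σ) (H : d.OK q₀ δ) (τ : d.Ta)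
include e H

theorem xt_th (t : Tc σ a) : xt τ'.1 (rs τ'.1 (d.s τ t)) = d.s τ t := xt_rs (e ▸ ee_sp H τ t)

include hJ in
theorem two (h0 : (d.FX τ).OK) : Two (d.FX τ) (fm J M.c0 (p0 A h τ'.1) (xt τ'.1) (Qs J τ'.1))
    (fun t => rs τ'.1 (d.s τ t)) (dO d τ) where
  ok := h0
  ok' := (pm hJ τ'.2).fam
  B := rfl
  om := un0
  om' := un0
  sub t ht := hJ.memO H.mem ((ov_iff hJ H.mem).2 ⟨ee_sp H τ t, ht⟩)
  mp t ht b hb := by rw [xt_th e H]; exact ht b hb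
  sm := sm_rs.comp (sm_ee _ _)
  G t _ := congrArg (J.G M.c0) (xt_th e H τ t)

theorem crow_job (q : Wi →₀ ℝ) (i : (p0 A h τ'.1).H) (t : Tc σ a)
    (x : Cfg (W.Z M.c0).M (Option κ) (lam ⊕ lam) r) (χ : (J.cut M.c0 i).H (J.B M.c0) x.m) :
    (((J.cut M.c0 i).T (J.B M.c0) (J.G M.c0 (xt τ'.1 (rs τ'.1 (d.s τ t)))).F x.m x.W -
      (show Pc r (J.B M.c0) (J.cut M.c0 i) from
        (cu J M.c0 (p0 A h τ'.1) (xt τ'.1) (Qs J τ'.1)).tot q i (rs τ'.1 (d.s τ t))) x) χ).1 =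
      crow (J.cut M.c0 i) (J.B M.c0) (J.G M.c0 (d.s τ t)).F (J.σc M.c0 q (d.s τ t) i) x χ.1 := by
  rw [crow_coe, CTh.tot_ofT]
  exact congrArg (fun s => (((J.cut M.c0 i).T (J.B M.c0) (J.G M.c0 s).F x.m x.W -
    J.σc M.c0 q s i x) χ).1) (xt_th e H τ t)

set_option maxHeartbeats 1000000 in
theorem chartQ (n₀ : ℤ) (h0 : (d.Xs τ).OK)
    (h1 : ∀ i, d.cm.ψ0 i ∈ Hd d.Jc ((d.Xs τ).md.pp (J.B M.c0) (J.cut M.c0 i).x0)) :
    ∃ (o : (QQ hJ n₀ τ').O) (Θ : d.EE δ 8 τ → (QQ hJ n₀ τ').C o)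
      (j : (QQ hJ n₀ τ').E o →L[ℝ] d.Y1 δ 8 τ), Injective j ∧
      ContDiffOn ℝ ∞ Θ {v | v.2.1 ∈ dO d τ} ∧ (∀ v, pT τ' o (Θ v) = rs τ'.1 (d.s τ v.2.1)) ∧
      (∀ w p, p.1 ∈ dO d τ → ∃ y : (QQ hJ n₀ τ').S o, (QQ hJ n₀ τ').pt y = Θ ((d.Xs τ).sp δ 8 w p) ∧
        Job.Iso (ob ⟨o, y⟩) (d.ob τ w p)) ∧
      ∀ q Hh, d.Rep δ 8 τ q Hh → ∀ v, v.2.1 ∈ dO d τ → (Hh v).1 = j ((QQ hJ n₀ τ').F o q (Θ v)) := by
  obtain ⟨A₀, H1, H2, Θ, j, k1, k2, k3, k4, k5⟩ := chart (two hJ e H τ h0.fam) h0 (ct := J.cut M.c0)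
    (g := (p0 A h τ'.1).H) (κ := Subtype.val) (ε := fun i => ⟨i, trivial⟩) (fun _ => rfl)
    (fun _ => rfl) H.δ0.le (c := d.cm) h1 (pm hJ τ'.2).ch (n₀ + dim τ'.1 + 2 * Fintype.card h)
    ((pm hJ τ'.2).cok _)
  refine ⟨⟨⟨(d.Xs τ).md, A₀⟩, H1, H2⟩, Θ, j, k1, k2, k3, fun w p hp => ?_, fun q Hh hH v hv =>
    k5 q (d.εX τ q) (fun t _ x => ?_) (fun i t _ => crow_job e H τ q i t) Hh hH v hv⟩
  · obtain ⟨y, e1, e2, e3, e4⟩ := k4 w p hp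
    refine ⟨y, e1, iso_of_eq (ok_ob (hJ := hJ) (n₀ := n₀) ⟨_, y⟩)
      ((congrArg (xt τ'.1) e2).trans (xt_th e H τ _)) e3 fun i => heq_of_eq ((e4 ⟨i, trivial⟩).trans ?_)⟩
    exact congrArg (· + (p.2.2.2 i).1) (coe_pj (h1 i)).symm
  · have k : CH.pq (fun t => J.τ0 M.c0 (xt τ'.1 t)) (fun w t => J.τw M.c0 (xt τ'.1 t) w) q
        (rs τ'.1 (d.s τ t)) = J.τ M.c0 q (d.s τ t) := congrArg (J.τ M.c0 q) (xt_th e H τ t)
    rw [k]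
    exact ⟨rfl, rfl, rfl, rfl⟩

omit e H in
theorem fd_tc (n₀ : ℤ) (k : τ'.1 a = none) (o : (QQ hJ n₀ τ').O) (v : (QQ hJ n₀ τ').C o) :
    fderiv ℝ (tcF τ' a o) v ≠ 0 := by
  let L := ContinuousLinearMap.proj (R := ℝ) (φ := fun _ => ℝ) (⟨a, k⟩ : {a // τ'.1 a = none}) ∘L
    pT (hJ := hJ) (n₀ := n₀) τ' o
  rw [show tcF τ' a o = L from funext fun _ => xt_none k, L.fderiv]
  exact fun k => one_ne_zero (DFunLike.congr_fun k ((0, 0, 0, 1), 0))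

omit e H in
/-- **LEAF CHG** (`= Kit16.ChgL J`) -/
theorem chg (hJ : J.OK) (hne : J.𝒦.Nonempty) (n₀ : ℤ) (hr : r ≠ 0) (hI : ∀ σ ∈ J.𝒦, ∀ s,
    J.Ov σ M.c0 s → 6 * J.k + tp0 J s + 2 * r - 2 * n - 2 - 2 * Fintype.card h = n₀) (Adm) :
    AllD J fun _ _ _ _ _ d q₀ δ => d.Gen q₀ δ 8 → d.Chg δ 8 (mdlD hJ hne n₀) Adm := by
  intro σ a U Up R d q₀ δ H G
  obtain ⟨ρ, h0, h1⟩ := ex_rho H
  obtain ⟨C, hB⟩ := G.base
  have e := cel0_eq (hne := hne) H.mem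
  refine ⟨ρ, h0, (hB.and G.geo.len).mono fun τ ⟨⟨b1, _, _, _, b2⟩, b3, _⟩ => ?_⟩
  obtain ⟨o, Θ, j, k1, k2, k3, k4, k5⟩ := chartQ hJ e H τ n₀ b1 b2
  have m : ∀ v : d.EE δ 8 τ, ‖v‖ < ρ → v.2.1 ∈ dO d τ := fun v hv =>
    h1 τ b3 _ (((norm_fst_le v.2).trans (norm_snd_le v)).trans_lt hv)
  refine ⟨o, Θ, j, k1, fun v hv => ⟨?_, ?_, ?_, fd_tc hJ n₀ (e.symm ▸ H.fr) o _,
    fun q Hh hH => k5 q Hh hH v (m v hv)⟩, fun w p hp => ?_⟩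
  · exact (k2.contDiffAt (mem_of_superset (Metric.isOpen_ball.mem_nhds (mem_ball_zero_iff.2 hv))
      fun u hu => m u (mem_ball_zero_iff.1 hu))).differentiableAt (by simp)
  · exact ⟨((k3 v).symm ▸ (two hJ e H τ b1.fam).mp (m v hv) : pT _ o (Θ v) ∈ Qs J _), trivial⟩
  · exact (congrArg (xt _ · a) (k3 v)).trans ((congrFun (xt_th e H τ _) a).trans (ee_self _ _ _))
  · obtain ⟨y, e1, e2⟩ := k4 w p (m _ hp)
    exact ⟨y, e1, e2, fun q _ s t => M_of hr hI H.mem s t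
      (e2.symm (ok_ob _) (s.ok hJ H.mem))⟩

end Crest.Agent.X212.Chg68
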