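import Crest.Agent.X212.Chg68.Ext
import Crest.Agent.X212.Kit16.Th

/-!
# Row 212, GL-CHG (helper68): the chart in the model of a closed problem
-/

set_option autoImplicit false
set_option linter.unusedSectionVars false
noncomputable section
open scoped Manifold ContDiff Topology InnerProductSpace
open MeasureTheory Set Function Filter

namespace Crest.Agent.X212.Chg68
open An Prm93 Sob92 Mod61 Gl67 Kit16
open Map77 (Cf fa fp maps_f2 maps_s2)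
open Wz78 (idx_apply)

variable {E : Type} [NormedAddCommGroup E] [NormedSpace ℝ E] [FiniteDimensional ℝ E]
  [MeasurableSpace E] [BorelSpace E]
  {HM : Type} [TopologicalSpace HM] {I : ModelWithCorners ℝ E HM} [I.Boundaryless]
  {M : Type} [TopologicalSpace M] [ChartedSpace HM M] [IsManifold I ∞ M]
  [MeasurableSpace M] [T2Space M] [BorelSpace M] [SecondCountableTopology M] [CompactSpace M]
  {ι lam h : Type} [Fintype ι] [Fintype lam] [Fintype h]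
  {T T' U Up R : Type} [NormedAddCommGroup T] [NormedSpace ℝ T] [NormedAddCommGroup T']
  [NormedSpace ℝ T'] [NormedAddCommGroup U]
  [NormedSpace ℝ U] [NormedAddCommGroup Up] [NormedSpace ℝ Up] [NormedAddCommGroup R]
  [NormedSpace ℝ R] {N r n m k : ℕ} {Jc : En (Fin N)} {𝔉 : Fam I M ι lam T}
  {𝔉' : Fam I M ι lam T'}

set_option maxHeartbeats 1000000 in
/-- **the chart** in the model of a closed problem with cuts -/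
theorem chart [DecidableEq ι] [FiniteDimensional ℝ T'] [CompleteSpace T'] {W : Type}
    {s : Sid 𝔉 N Jc U Up R} {θ : T → T'} {O : Set T} (X : Two 𝔉 𝔉' θ O) (H : s.OK)
    {ct : h → Cut M lam} {g : Type} [Fintype g] {κ : g → h} {ε : h → g} (h1 : ∀ i, κ (ε i) = i)
    (h2 : ∀ i, ε (κ i) = i) {δ : ℝ} (hδ : 0 ≤ δ) {c : Cm N r h R}
    (h0 : ∀ i, c.ψ0 i ∈ Hd Jc (s.md.pp 𝔉.B (ct i).x0)) {τ0 : T' → Pt M ι lam r n}
    {τ : W → T' → Pt M ι lam r n} (hc : CH 𝔉' τ0 τ) (d : ℤ)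
    {σ : ∀ i, W → T' → Pc r 𝔉'.B (ct (κ i))}
    (hΞ : CTh.OK ⟨fun i => ct (κ i), σ⟩ (hc.th d)) :
    ∃ (A : s.md.Cn) (H1 : s.md.OK I 𝔉'.B) (H2 : s.md.IsConn 𝔉'.B 𝔉'.G0 A)
      (Θ : s.EE r ct δ 8 → (hΞ.ext (hc.ok d)).prob.C ⟨⟨s.md, A⟩, H1, H2⟩)
      (j : (hΞ.ext (hc.ok d)).prob.E ⟨⟨s.md, A⟩, H1, H2⟩ →L[ℝ] s.Y1 n (min r 1) ct δ 8),
      Injective j ∧ ContDiffOn ℝ ∞ Θ {v | v.2.1 ∈ O} ∧ (∀ v, (Θ v).1.2.2.2 = θ v.2.1) ∧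
      (∀ w q, q.1 ∈ O → ∃ y : (hΞ.ext (hc.ok d)).prob.S ⟨⟨s.md, A⟩, H1, H2⟩,
        (hΞ.ext (hc.ok d)).prob.pt y = Θ (s.sp δ 8 w q) ∧ y.1.t = θ q.1 ∧
        y.1.cfg = s.cfg c w (s.emb q) ∧ ∀ i, (y.2 i).1 = c.ψ0 (κ i) + (q.2.2.2 (κ i)).1) ∧
      ∀ q (e : Eqn 𝔉 r n (min r 1) ct), (∀ t ∈ O, ∀ x,
        (e.e t).D x = x.eD (𝔉.G t) (CH.pq τ0 τ q (θ t)) ∧
        (e.e t).C x = x.eC 𝔉.B (𝔉.G t) (CH.pq τ0 τ q (θ t)) ∧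
        (e.e t).S x = (CH.pq τ0 τ q (θ t)).S x ∧ (e.e t).R x = fun _ => ‖x.z‖ ^ 2 - 1) →
      (∀ i, ∀ t ∈ O, ∀ (x : Cfg M ι lam r) (χ : (ct (κ i)).H 𝔉'.B x.m),
        (((ct (κ i)).T 𝔉'.B (𝔉'.G (θ t)).F x.m x.W -
          CTh.tot ⟨fun i => ct (κ i), σ⟩ q i (θ t) x) χ).1 =
        crow (ct (κ i)) 𝔉.B (𝔉.G t).F (e.σ t (κ i)) x χ.1) →
      ∀ Hh, s.Rep c e δ 8 Hh → ∀ v, v.2.1 ∈ O →
        (Hh v).1 = j ((hΞ.ext (hc.ok d)).prob.F ⟨⟨s.md, A⟩, H1, H2⟩ q (Θ v)) := by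
  obtain ⟨A, H2, hA⟩ := X.exists_A H.ok H.conn
  have H1 : s.md.OK I 𝔉'.B := X.B ▸ H.ok
  refine ⟨A, H1, H2, thE 8 s θ H1 H2 ct κ δ c, jE n (min r 1) 8 s H1 H2 ct κ ε δ, ?_, ?_, fun _ => rfl, fun w q hq => ?_, fun q e he hσ Hh hH v hv => ?_⟩
  · exact jE_inj H1 H2 X H h2
  · exact sm_thE H1 H2 X H (by norm_num)
  · obtain ⟨y, e1, e2, e3⟩ := pt_thE (κ := κ) (c := c) (k := 8) H1 H2 X H hδ (by norm_num) hA w q hq
    exact ⟨(y, _), e3.symm, e1, e2, fun i => coe_pj ((mem_Hd X).2 (add_mem (h0 _) (q.2.2.2 _).2))⟩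
  have a1 : ∀ t ∈ O, ∀ x, ((hc.th d).tot q (θ t)).D x = (e.e t).D x ∧
      ((hc.th d).tot q (θ t)).C x = (e.e t).C x ∧ ((hc.th d).tot q (θ t)).S x = -(e.e t).S x ∧
      ((hc.th d).tot q (θ t)).R x = (e.e t).R x := fun t ht x => by
    obtain ⟨k1, k2, k3, k4⟩ := he t ht x
    rw [CH.tot_eq, k1, k2, k3, k4]
    refine ⟨funext fun z => ?_, funext fun z => ?_, funext fun z => ?_, funext fun z => ?_⟩
    · simp [PtX.add_D, PtX.sub_D, nM, px, Fam.eq0, eq0, Cfg.eD, X.G t ht]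
    · simp [PtX.add_C, PtX.sub_C, nM, px, Fam.eq0, eq0, Cfg.eC, X.G t ht, X.B]
    · simp [PtX.add_S, PtX.sub_S, nM, px, Fam.eq0, eq0]
    · simp [PtX.add_R, PtX.sub_R, nM, px, Fam.eq0, eq0]
  obtain ⟨Tq, hT⟩ : ∃ Tq : ∀ i, (rf s H1 H2).C r 8 →
      CL (HH (rf s H1 H2) (ct (κ i))) (HH (rf s H1 H2) (ct (κ i))),
      ∀ i, Tq i = (hΞ.ext (hc.ok d)).T ⟨⟨s.md, A⟩, H1, H2⟩ i q := ⟨_, fun _ => rfl⟩
  have a2 : ∀ i (y : Pnt (rf s H1 H2) r), ∀ t ∈ O, y.t = θ t → ∀ χ, (Tq i (y.pt 8) χ).1 =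
      crow (ct (κ i)) 𝔉.B (𝔉.G t).F (e.σ t (κ i)) y.cfg χ.1 := fun i y t ht e1 χ => by
    rw [← hσ i t ht y.cfg χ, ← e1, hT]
    exact congrArg (fun A : CL (HH (rf s H1 H2) (ct (κ i))) (HH (rf s H1 H2) (ct (κ i))) => (A χ).1)
      (hΞ.T_pt (hc.ok d) q _ i y)
  have a3 : ∀ i, ContinuousOn (Tq i) ((rf s H1 H2).U r 8) := fun i => by
    rw [hT]
    exact ((hΞ.ax (hc.ok d)).smT _ i q).continuousOn
  have a4 := eq_thE H1 H2 X H hδ (by norm_num) hA h1 h0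
    ((hc.ok d).repF ⟨⟨s.md, A⟩, H1, H2⟩ q) a1 a2 a3 hH hv
  rw [funext hT] at a4
  exact a4.trans (congrArg _ ((hΞ.ext (hc.ok d)).F_eq ⟨⟨s.md, A⟩, H1, H2⟩ q _).symm)

end Crest.Agent.X212.Chg68
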